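import Crest.Agent.X212.Sw88.Bn
import Crest.Agent.X212.Dr9.HolD
import Crest.Agent.X212.Pb50.Nk

/-!
# Row 212, SW-DRU, SW-OCC (helper9): the drift of the holonomy, uniformly in the level
-/

set_option autoImplicit false
set_option linter.unusedSectionVars false
noncomputable section
open scoped Manifold ContDiff Topology InnerProductSpace
open MeasureTheory Set Function Filter

namespace Crest.Agent.X212.Dru9
open An Sw Sw.En3 Sep15.S Sw88 Dr9
open Nd18 (Jv)

theorem stp_le {φ : ℝ → ℝ} {l : ℝ} (h : Stp φ l) (hl : 0 < l) (r r' : ℝ) :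
    |r - r'| ≤ l * (1 + |φ r - φ r'|) := by
  wlog k : r' ≤ r generalizing r r'
  · rw [abs_sub_comm, abs_sub_comm (φ r)]; exact this _ _ (le_of_not_ge k)
  have m := monotone_of_deriv_nonneg (h.sm.differentiable one_ne_zero) fun r => (h.d r).1
  have u : ∀ n : ℕ, φ r' + n ≤ φ (r' + n * l) := fun n => by
    induction n with
    | zero => simp
    | succ n ih => rw [Nat.cast_succ, add_mul, one_mul, ← add_assoc, ← add_assoc]; linarith [h.up (r' + n * l)]
  have h1 := (le_div_iff₀ hl).1 (Nat.floor_le (div_nonneg (sub_nonneg.2 k) hl.le))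
  have h2 := (div_lt_iff₀ hl).1 (Nat.lt_floor_add_one ((r - r') / l))
  have h3 := (u _).trans (m (show r' + ⌊(r - r') / l⌋₊ * l ≤ r by linarith))
  rw [abs_of_nonneg (sub_nonneg.2 k)]
  nlinarith [le_abs_self (φ r - φ r')]

variable {κ lam ν : Type} [Fintype κ] [Fintype lam] [Fintype ν] [DecidableEq ν] {e : En3 κ lam ν}
  {C : ℝ}

theorem vol_le (h : e.Nb C) : e.D.F.μ.real univ ≤ |C| :=
  ENNReal.toReal_le_of_le_ofReal (abs_nonneg C) (h.vol.trans (ENNReal.ofReal_le_ofReal (le_abs_self C)))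

theorem ζ_le (h : e.Nb C) (y : e.Y.M) (k : κ) : ‖e.ζ y (none, some k)‖ ≤ |C| :=
  (PiLp.norm_apply_le _ _).trans ((h.ζ y).trans (le_abs_self C))

theorem pair_le (he : e.OK) (h : e.Nb C) {v : e.YC} (hv : e.cyl.Adm (fz v)) {a : κ → e.Y.M → ℝ}
    {A : ℝ} (hA : 0 ≤ A) (ha : ∀ k y, |a k y| ≤ A + (gr v).a k y * (gr v).a k y) :
    |∫ y, 4 * ∑ k, e.ζ y (none, some k) * a k y ∂e.D.F.μ| ≤
      4 * Fintype.card κ * A * |C| * |C| + 2 * |C| * gn v := by
  have i := (integrable_const (4 * Fintype.card κ * A * |C|)).add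
    ((integrable_gn he hv).const_mul (2 * |C|))
  rw [← Real.norm_eq_abs]
  refine (norm_integral_le_of_norm_le i (.of_forall fun y => ?_)).trans ?_
  · have z3 : 0 ≤ e.w * ⟪(gr v).Φ y, (gr v).Φ y⟫_ℝ := mul_nonneg he.cyl.w real_inner_self_nonneg
    have z4 := (norm_sum_le _ _).trans (Finset.sum_le_sum fun k (_ : k ∈ Finset.univ) =>
      (norm_mul _ _).trans_le (mul_le_mul (ζ_le h y k) (ha k y) (norm_nonneg _) (abs_nonneg C)))
    simp only [Finset.sum_add_distrib, ← Finset.mul_sum, Finset.sum_const, Finset.card_univ,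
      nsmul_eq_mul] at z4
    rw [norm_mul, Real.norm_of_nonneg (by norm_num : (0 : ℝ) ≤ 4), Pi.add_apply]
    nlinarith [mul_nonneg (abs_nonneg C) z3]
  · rw [integral_add' (integrable_const _) ((integrable_gn he hv).const_mul _), integral_const,
      integral_const_mul, smul_eq_mul, mul_comm]
    exact add_le_add (mul_le_mul_of_nonneg_left (vol_le h) (by positivity)) le_rfl

theorem hol_sub_le (he : e.OK) (h : e.Nb C) {v v' : e.YC} (hv : e.cyl.Adm (fz v))
    (hv' : e.cyl.Adm (fz v')) (ha : ∀ k y, |v.a k y - v'.a k y| ≤ 1) :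
    |hol v - hol v'| ≤ 4 * Fintype.card κ * |C| * |C| := by
  rw [hol, hol, ← integral_sub (int_ζ he (sm_a hv)) (int_ζ he (sm_a hv')), ← Real.norm_eq_abs]
  refine (norm_integral_le_of_norm_le_const (C := 4 * Fintype.card κ * |C|)
    (.of_forall fun y => ?_)).trans (mul_le_mul_of_nonneg_left (vol_le h) (by positivity))
  have z4 := (norm_sum_le _ _).trans (Finset.sum_le_sum fun k (_ : k ∈ Finset.univ) =>
    (norm_mul _ _).trans_le (mul_le_mul (ζ_le h y k) (ha k y) (norm_nonneg _) (abs_nonneg C)))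
  simp only [← mul_sub, ← Finset.sum_sub_distrib, norm_mul, Finset.sum_const, Finset.card_univ,
    nsmul_eq_mul, Real.norm_ofNat] at z4 ⊢
  linarith

/-- **SW-DRU** -/
theorem dru : DruStmt κ lam ν := by
  intro C ε l hε hl
  obtain ⟨K, K0, hK⟩ : ∃ K, 0 ≤ K ∧ K = 4 * Fintype.card κ * 3 * |C| * |C| * ε⁻¹ + 2 * |C| :=
    ⟨_, by positivity, rfl⟩
  refine ⟨l * (1 + K), fun e he hN hG c p p' ha hC hE t ht t' ht' => ?_⟩
  have E0 : 0 ≤ (en c (Jv p p')).toReal := ENNReal.toReal_nonneg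
  rcases hG with hG | ⟨φ, hφ, hG⟩
  · rw [hG, hG, sub_self, abs_zero]; positivity
  have h1 := (ordConnected_Jv p p').uIcc_subset ht ht'
  have h3 := (abs_sub_le_lint (ordConnected_Jv p p') (fun s hs =>
    ((hφ.sm.differentiable one_ne_zero _).hasDerivAt.comp s (hol_der he (isOpen_Jv p p') ha hs)))
    ht ht').trans (setLIntegral_mono' (g := fun s => ENNReal.ofReal K * ENNReal.ofReal (gn (sl c s)))
      measurableSet_uIcc fun s hs => ?_)
  · rw [lintegral_const_mul' _ _ ENNReal.ofReal_ne_top] at h3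
    have h4 := h3.trans (mul_le_mul_right (lintegral_mono_set h1) _)
    rw [show ∫⁻ s in Jv p p', _ = _ from (ENNReal.ofReal_toReal hE).symm, ← ENNReal.ofReal_mul K0,
      ENNReal.ofReal_le_ofReal_iff (by positivity)] at h4
    refine (stp_le hφ hl _ _).trans ?_
    rw [mul_assoc]
    exact mul_le_mul_of_nonneg_left (by simp only [comp] at h4; nlinarith) hl.le
  rw [← ENNReal.ofReal_mul K0]
  have hv := adm_sl (isOpen_Jv p p') ha (h1 hs)
  have g0 := gn_nonneg he.cyl.w (sl c s)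
  refine ENNReal.ofReal_le_ofReal ?_
  by_cases k : deriv φ (hol (sl c s)) = 0
  · rw [k, zero_mul, abs_zero]; positivity
  rw [abs_mul, abs_of_nonneg (hφ.d _).1]
  refine (mul_le_of_le_one_left (abs_nonneg _) (hφ.d _).2).trans
    ((pair_le he hN hv zero_le_three fun k y => ?_).trans ?_)
  · have := abs_le.1 ((PiLp.norm_apply_le _ (none, some k)).trans (hC (y, s) ⟨trivial, h1 hs⟩))
    rw [abs_le]
    constructor <;> nlinarith [sq_nonneg ((gr (sl c s)).a k y - 1), sq_nonneg ((gr (sl c s)).a k y + 1)]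
  · rw [hK, add_mul, mul_assoc _ ε⁻¹]
    exact add_le_add (le_mul_of_one_le_right (by positivity)
      ((one_le_inv_mul₀ hε).2 (hG _ hv k))) le_rfl

section pc
variable {d : Dt κ lam ν} {X : M.Mf 4} {nc : ℕ} {N : Type} [Fintype N] {ty : N → d.𝓔}
  {P : Pc d X nc ty} {c : Cfg X.M κ ν} {i : N} {K : Nk (d.e (ty i)) P.bg} {q : d.W →₀ ℝ}

/-- on a neck the terms have size at most `2 η` -/
theorem own_le (hP : P.toPz.OK) (hK : K ∈ P.nk i) {k : ℕ} {η : ℝ} (hq : P.Small k η q)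
    {x : (d.e (ty i)).Y.M × ℝ} (hx : x.2 ∈ K.deep 2)
    (h : P.bg.eC c (K.ψ x) = (P.pt q).C c (K.ψ x)) : ‖(d.e (ty i)).cyl.eC (K.pb c) x +
      deriv (d.e (ty i)).f (hol (sl (K.pb c) x.2)) • (d.e (ty i)).ζ x.1‖ ≤ 2 * η := by
  have hs := K.mem_src.2 (Pb50.deep_J K two_pos hx)
  obtain ⟨s, h1, h2⟩ := hq
  have h3 := (Pb50.pt_ψ hP 0 c hK hx (by simp)).2
  simp only [Pc.pt, En3.pt, tau, Finsupp.sum_zero_index, add_zero] at h3
  rw [← Pb50.eC_ψ K hs, h, Pc.pt]
  simp only [h3, neg_smul, neg_add_cancel_comm]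
  refine (norm_sum_le _ _).trans (le_trans ?_ (mul_le_mul_of_nonneg_left h1 zero_le_two))
  rw [Finsupp.sum, Finset.mul_sum]
  refine Finset.sum_le_sum fun w hw => ?_
  rw [norm_smul, mul_left_comm, two_mul]
  refine mul_le_mul_of_nonneg_left ((norm_add_le _ _).trans
    (add_le_add (Sob92.CB_bound (h2 w hw).2.1 _) ?_)) (abs_nonneg _)
  rw [Pb50.sum_nk hP hK (K.ψ.map_source hs)
    (fun j K' => (d.yt w (ty j)).elim 0 fun T => K'.ms T c (K.ψ x)) fun j K' h =>
      Pb50.elim_zero fun T _ => by rw [Nk.ms, K'.ext_zero _ h, smul_zero]]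
  rcases hT : d.yt w (ty i) with _ | T
  · simpa using (h2 w hw).1
  · simpa [Nk.ms, Pb50.ext_ψ K _ hx] using
      Sob92.CB_bound ((h2 w hw).2.2.2.2 i T hT 0 k.zero_le _) x.1

theorem en_le (hK : K ∈ P.nk i) : en (K.pb c) (K.deep 2) ≤ P.ean c :=
  le_add_left ((Finset.single_le_sum (f := fun i => (P.nk i).elim 0 fun K => en (K.pb c) (K.deep 2))
    (fun _ _ => zero_le) (Finset.mem_univ i)).trans_eq' (by rw [Option.mem_def.1 hK]; rfl))

end pc

/-- **SW-OCC** -/
theorem occ : OccStmt κ lam ν := by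
  intro C ε l B hε hl
  obtain ⟨C', h⟩ := dru (κ := κ) (lam := lam) (ν := ν) C ε l hε hl
  refine ⟨|B| + |C'| + 4 * Fintype.card κ * |C| * |C|, fun d _ Sl _ X nc nr T _ _ _ s σ hσ j hj hB hN
    hG ι 𝒰 q y ρ v τ E hE hP hS hv hW => ?_⟩
  obtain ⟨i, ⟨h1, -⟩, ⟨h2, h3⟩, K, hK, h4, -, h5⟩ :=
    (hP.eq.and (hS.and (hW.cl 0 4 1 one_pos))).exists
  have he := hσ.site.en j
  have hP := (hσ.ok _ (y i).2.1).toOK
  have d3 : ∀ r < 4, τ i ∈ K.deep r := fun r hr =>
    mem_Jv_map.2 ⟨fun a ha => by linarith [(h4 (left_mem_Icc.2 (by linarith))).1 a ha],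
      fun a ha => by linarith [(h4 (right_mem_Icc.2 (by linarith))).2 a ha]⟩
  have e0 := ne_top_of_le_ne_top ENNReal.ofReal_ne_top h3
  obtain ⟨τ₀, k1, -, k2⟩ := hB _ (y i).2.1 K hK _ (y i).2.2.1 e0
    (Nonempty.ne_empty ⟨_, d3 3 (by norm_num)⟩)
  have ha := Pb50.admOn_pb K (y i).2.2.1
  have k3 := h _ he hN hG (K.pb (y i).1.2) _ _ (admOn_mono ha (prod_mono_right fun _ =>
    Pb50.deep_J K two_pos)) (fun x hx => (own_le hP hK (h2 _ (y i).2.1) hx.2 (h1 _ ?_).2).trans_eq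
      (by norm_num)) (ne_top_of_le_ne_top e0 (en_le hK)) _ (d3 2 (by norm_num)) _ k1
  · have k4 := hol_sub_le he hN (adm_sl (isOpen_Jv _ _) ha (Pb50.deep_J K two_pos
      (d3 2 (by norm_num)))) hv fun k z => (h5 [] le_rfl (z, τ i)
        ⟨trivial, by linarith, by linarith⟩).1 (some k)
    have k5 := ENNReal.toReal_le_of_le_ofReal hE h3
    have k6 := ENNReal.toReal_le_of_le_ofReal hE ((en_le hK).trans h3)
    have k7 := k2.trans (mul_le_mul (le_abs_self B) (add_le_add_right k5 1) (by positivity)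
      (abs_nonneg _))
    have k8 := k3.trans (mul_le_mul (le_abs_self C') (add_le_add_right k6 1) (by positivity)
      (abs_nonneg _))
    have k9 := k4.trans (le_mul_of_one_le_right (by positivity) (le_add_of_nonneg_right hE))
    rw [abs_le] at k7 k8 k9 ⊢
    constructor <;> linarith [k7.1, k7.2, k8.1, k8.2, k9.1, k9.2]
  · rintro j' b K' hK' - r - ⟨z, hz, e⟩
    obtain ⟨K₁, k3, k4⟩ := hσ.en _ (y i).2.1 j' K' hK'
    have hψ : K₁.ψ = K'.ψ := congrArg (·.2.2.1) k4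
    exact disjoint_left.1 (hP.dj (show j' ≠ j by rintro rfl; simp [hj] at hK') K₁ k3 K hK)
      (hψ ▸ e ▸ K'.ψ.map_source (K'.mem_src.2 hz.2.1))
      (K.ψ.map_source (K.mem_src.2 (Pb50.deep_J K two_pos hx.2)))

end Crest.Agent.X212.Dru9
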